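import Vale.Agent.P269.G1I.All
import Vale.Agent.P269.G2I.BSpec1
import Vale.Agent.P269.G2I.Model1
import Vale.Agent.P269.G2I.Model2
import Vale.Agent.P269.G2I.Model3
import Vale.Agent.P269.G2I.T.H598_C46
import Vale.Agent.P269.H597.Final

/-!
# [M9]: `om_1` is constant, and `de_1 = 0`
-/

namespace Vale.Agent.P269.G2.H860

open Finset.HasAntidiagonal (antidiagonal)
open Vale.Agent.P269.CI Vale.Agent.P269.H597
open Vale.Agent.P269.G1 (Frob)

section gen

variable {R A O : Type*} [CommRing R] [Algebra ℚ R] [CommRing A] [Algebra R A]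
    [Ring O] [Algebra R O]

theorem om_one (S : Frob R A O) : S.om 1 =
    -((1 / 4 : ℚ) • S.str (S.mu * S.mu)) + (1 / 24 : ℚ) • (S.rho • S.str 1) := by
  unfold Frob.om
  rw [Finset.Nat.antidiagonal_succ]
  simp [S.d_one]

end gen

variable {X : CompleteIntersection} {F : ℕ → ℕ → List (Ins X) → ℂ}

/-- constants -/
noncomputable def cbH (n : ℕ) : ℂ →+* RB n := (MvPowerSeries.C (σ := Fin n)).comp PowerSeries.C

theorem cb_eq (n : ℕ) (c : ℂ) : cb n c = cbH n c := rfl

variable (hF : IsGW X F) (he : Even X.dim)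

include he in
theorem sgn_self (a : Ix X) : sgn (par X a) (par X a) = 1 := by
  have h : par X a = false := by
    cases a with
    | inl j => rfl
    | inr v =>
      have : X.dim % 2 = 0 := Nat.even_iff.1 he
      simp [par, this]
  rw [h]
  rfl

include he in
theorem str_eq (f : Ix X → ℂ) : str X f = ∑ a, f a := by
  unfold str
  refine Finset.sum_congr rfl fun a _ => ?_
  rw [sgn_self he, one_mul]

include he in
theorem strB_mu (n : ℕ) : strB X n (muB X n * muB X n) = cb n (str X fun a => mu X a ^ 2) := by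
  change Matrix.trace (muB X n * muB X n) = _
  unfold muB
  rw [Matrix.diagonal_mul_diagonal, Matrix.trace_diagonal, str_eq he, cb_eq, map_sum]
  refine Finset.sum_congr rfl fun a _ => ?_
  rw [cb_eq, ← map_mul, sq]

include he in
theorem strB_one (n : ℕ) : strB X n 1 = cb n (str X fun _ => 1) := by
  change Matrix.trace (1 : OB X n) = _
  rw [Matrix.trace_one, str_eq he, cb_eq, map_sum]
  simp

theorem om_one_eq : (frob hF he).om 1 =
    cb (nx X) (-(1 / 4) * (str X fun a => mu X a ^ 2) +
      X.dim / 48 * (str X fun _ => 1)) := by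
  rw [om_one]
  change -((1 / 4 : ℚ) • strB X (nx X) (muB X (nx X) * muB X (nx X))) +
    (1 / 24 : ℚ) • (((X.dim : ℚ) / 2) • strB X (nx X) 1) = _
  rw [strB_mu he, strB_one he, cb_eq, cb_eq, cb_eq, ← map_rat_smul, ← map_rat_smul,
    ← map_rat_smul, ← map_neg, ← map_add]
  congr 1
  rw [Rat.smul_def, Rat.smul_def, Rat.smul_def]
  push_cast
  ring

/-- **[M9]** -/
theorem frob_om_one (x : AM hF he) : (frob hF he).der x ((frob hF he).om 1) = 0 := by
  rw [om_one_eq]
  exact der_cb hF he x _

/-- **[M9]** -/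
theorem frob_de_one (_ : 3 ≤ X.dim) : (frob hF he).de 1 = 0 := by
  unfold Frob.de
  rw [om_one_eq, pow_one]
  change GG hF he (EM hF he) - _ = 0
  rw [G_E, cb_eq, cb_eq, ← map_sub, H861.euler, H861.libgober_wood]
  convert map_zero (cbH (nx X))
  ring

end Vale.Agent.P269.G2.H860
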